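import Vale.Agent.P281.H125.TM.Push
import Vale.Agent.P281.H713.Torus

/-!
# P281, project T-M (helper125), block M4: the push-forward inequality for a family of elliptic
curves
-/

open scoped Manifold ContDiff Topology ENNReal
open Set Filter Metric Module MeasureTheory

namespace Vale.Agent.P281.H125.TM

open Vale.Agent.P281 Vale.Agent.P281.MF Vale.Agent.P281.ISO Vale.Agent.P281.ELL
open Vale.Agent.P281.H713

set_option linter.unusedSectionVars false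

universe u

section Det

variable {E E' : Type} [NormedAddCommGroup E] [NormedSpace ℂ E] [FiniteDimensional ℂ E]
  [NormedAddCommGroup E'] [NormedSpace ℂ E'] [FiniteDimensional ℂ E']

theorem det_re (L : E →L[ℂ] E) : (L.restrictScalars ℝ).det = ‖L.det‖ ^ 2 := by
  have h1 := LinearMap.det_restrictScalars (R := ℝ) (S := ℂ) (f := (L : E →ₗ[ℂ] E))
  have h2 : (L.restrictScalars ℝ).det = ((L : E →ₗ[ℂ] E).restrictScalars ℝ).det := rfl
  rw [h2, h1, Algebra.norm_complex_apply, Complex.normSq_eq_norm_sq]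

/-- the real linear isomorphism -/
noncomputable def eR (e₀ : E ≃L[ℂ] (E' × ℂ)) : E ≃L[ℝ] (E' × ℂ) where
  toLinearEquiv := e₀.toLinearEquiv.restrictScalars ℝ
  continuous_toFun := e₀.continuous
  continuous_invFun := e₀.symm.continuous

theorem det_sw (e₀ : E ≃L[ℂ] (E' × ℂ)) (A : E →L[ℂ] E') (P : E →L[ℂ] ℂ) :
    ((e₀.symm : (E' × ℂ) →L[ℂ] E).comp (A.prod P)).det = JP e₀ A P := by
  have h1 := LinearMap.det_conj
    (((e₀.symm : (E' × ℂ) →L[ℂ] E).comp (A.prod P) : E →L[ℂ] E) : E →ₗ[ℂ] E) e₀.toLinearEquiv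
  refine h1.symm.trans ?_
  unfold JP
  congr 1
  ext w <;> simp

end Det

section Fam

variable {E E' : Type} [NormedAddCommGroup E] [NormedSpace ℂ E] [FiniteDimensional ℂ E]
  [NormedAddCommGroup E'] [NormedSpace ℂ E'] [FiniteDimensional ℂ E']
variable {X Z : Type u} [TopologicalSpace X] [ChartedSpace E X] [IsManifold 𝓘(ℂ, E) ω X]
  [TopologicalSpace Z] [ChartedSpace E' Z] [IsManifold 𝓘(ℂ, E') ω Z]

/-- the coefficient of `Θ ∧ (dw) ^ N` in the charts at `x₀` and `z₀` -/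
noncomputable def coefT (E E' : Type) [NormedAddCommGroup E] [NormedSpace ℂ E]
    [NormedAddCommGroup E'] [NormedSpace ℂ E'] {X Z : Type u} [TopologicalSpace X]
    [ChartedSpace E X] [TopologicalSpace Z] [ChartedSpace E' Z] (g : X → Z) (x₀ : X) (z₀ : Z)
    (N : ℕ) (Θ : X → ℂ) (x : X) : ℂ :=
  jac E' (chartAt E' z₀) (g x) ^ N * Θ x / jac E (chartAt E x₀) x ^ N

theorem chart_det {g : X → Z} (hg : ∀ x, HolM E E' g x) (e₀ : E ≃L[ℂ] (E' × ℂ)) {x₀ z : X}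
    {z₀ : Z} (hx₀ : z ∈ (chartAt E x₀).source) (hy₀ : g z ∈ (chartAt E' z₀).source)
    {ζ : X → ℂ} (hζ : HolV E ζ z) :
    HasFDerivAt (fun v => (chartAt E' z₀ (g ((chartAt E x₀).symm v)), ζ ((chartAt E x₀).symm v)))
      (fderiv ℂ (fun v => (chartAt E' z₀ (g ((chartAt E x₀).symm v)),
        ζ ((chartAt E x₀).symm v))) (chartAt E x₀ z)) (chartAt E x₀ z) ∧
    |(((eR e₀).symm : (E' × ℂ) →L[ℝ] E) ∘L ((fderiv ℂ (fun v =>
      (chartAt E' z₀ (g ((chartAt E x₀).symm v)), ζ ((chartAt E x₀).symm v)))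
      (chartAt E x₀ z)).restrictScalars ℝ)).det| =
      (‖jac E' (chartAt E' z₀) (g z)‖ * ‖JP e₀ (dM E E' g z) (dV E ζ z)‖
        / ‖jac E (chartAt E x₀) z‖) ^ 2 := by
  set φ := chartAt E x₀ with hφ
  set ψ := chartAt E' z₀ with hψ
  have hA₁ : HolV E (fun x => ψ (g x)) z :=
    HolV.comp (h := (ψ : Z → E')) (HolV.chart hy₀) (hg z)
  set A : E →L[ℂ] E' := fderiv ℂ ((fun x => ψ (g x)) ∘ φ.symm) (φ z) with hA
  set P : E →L[ℂ] ℂ := fderiv ℂ (ζ ∘ φ.symm) (φ z) with hP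
  have d1 : HasFDerivAt ((fun x => ψ (g x)) ∘ φ.symm) A (φ z) :=
    ((hA₁.rep hx₀).differentiableAt (by simp)).hasFDerivAt
  have d2 : HasFDerivAt (ζ ∘ φ.symm) P (φ z) :=
    ((hζ.rep hx₀).differentiableAt (by simp)).hasFDerivAt
  have d3 : HasFDerivAt (fun v => (ψ (g (φ.symm v)), ζ (φ.symm v))) (A.prod P) (φ z) :=
    d1.prodMk d2
  refine ⟨d3.differentiableAt.hasFDerivAt, ?_⟩
  rw [d3.fderiv]
  have h1 : (((eR e₀).symm : (E' × ℂ) →L[ℝ] E) ∘L
      ((A.prod P).restrictScalars ℝ)).det = ‖JP e₀ A P‖ ^ 2 := by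
    rw [← det_sw, ← det_re]
    rfl
  rw [h1, abs_of_nonneg (by positivity)]
  congr 1
  have h8 : (dV E' (ψ : Z → E') (g z)).comp (dM E E' g z) =
      A.comp (dV E (φ : X → E) z) := by
    have h9 := dV_comp (h := (ψ : Z → E')) (HolV.chart hy₀) (hg z)
    rw [← h9]
    exact dV_eq_chart hx₀ hA₁
  have h10 : (ContinuousLinearMap.id ℂ ℂ).comp (dV E ζ z) =
      P.comp (dV E (φ : X → E) z) := by
    rw [ContinuousLinearMap.id_comp]
    exact dV_eq_chart hx₀ hζ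
  have h11 := JP_left e₀ (dM E E' g z) (dV E ζ z) (dV E' (ψ : Z → E') (g z))
    (ContinuousLinearMap.id ℂ ℂ)
  rw [h8, h10, JP_comp, det_id', mul_one] at h11
  have h12 : jac E (φ : X → E) z ≠ 0 := jac_chart_ne_zero hx₀
  rw [eq_div_iff (norm_ne_zero_iff.2 h12), ← norm_mul, ← norm_mul]
  congr 1

/-- the identity of integrands -/
theorem integrand (N : ℕ) (hN : 0 < N) (a jj pp ff r : ℂ) (ρ : ℝ≥0∞)
    (hr : r = a * pp ^ N) :
    ENNReal.ofReal ((‖jj‖ * ‖pp‖ / ‖ff‖) ^ 2) * (ρ * ‖a‖ₑ ^ (2 / N : ℝ))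
      = ρ * ‖jj ^ N * r / ff ^ N‖ₑ ^ (2 / N : ℝ) := by
  have hN0 : (N : ℝ) ≠ 0 := by positivity
  have h1 : jj ^ N * r / ff ^ N = a * (jj * pp / ff) ^ N := by
    rw [hr, div_pow, mul_pow]
    ring
  have h2 : ‖jj * pp / ff‖ = ‖jj‖ * ‖pp‖ / ‖ff‖ := by rw [norm_div, norm_mul]
  have h3 : ‖a * (jj * pp / ff) ^ N‖ₑ = ‖a‖ₑ * ‖jj * pp / ff‖ₑ ^ N := by
    rw [enorm_mul, enorm_pow]
  rw [h1, h3, ENNReal.mul_rpow_of_nonneg _ _ (by positivity), ← ENNReal.rpow_natCast,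
    ← ENNReal.rpow_mul, mul_div_cancel₀ _ hN0, ← h2]
  have h4 : ENNReal.ofReal (‖jj * pp / ff‖ ^ 2) = ‖jj * pp / ff‖ₑ ^ (2 : ℝ) := by
    rw [ENNReal.ofReal_pow (norm_nonneg _), ofReal_norm]
    norm_cast
  rw [h4]
  ring

/-- the lower bound -/
theorem lower {N : ℕ} (hN : 0 < N) {c : ℝ} {a : ℂ} {v : ℝ} (hv : 0 ≤ v)
    (h : c ≤ ‖a‖ ^ 2 * v ^ N) :
    ENNReal.ofReal (min c 1) ≤ ‖a‖ₑ ^ (2 / N : ℝ) * ENNReal.ofReal v := by
  have hN0 : (N : ℝ) ≠ 0 := by positivity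
  have hN1 : (1 : ℝ) ≤ N := by exact_mod_cast hN
  have h1 : ENNReal.ofReal (min c 1) ≤ ‖a‖ₑ ^ 2 * ENNReal.ofReal v ^ N := by
    rw [← ofReal_norm, ← ENNReal.ofReal_pow (norm_nonneg _), ← ENNReal.ofReal_pow hv,
      ← ENNReal.ofReal_mul (by positivity)]
    exact ENNReal.ofReal_le_ofReal ((min_le_left _ _).trans h)
  have h2 : ENNReal.ofReal (min c 1) ≤ 1 := by
    rw [← ENNReal.ofReal_one]
    exact ENNReal.ofReal_le_ofReal (min_le_right _ _)
  calc ENNReal.ofReal (min c 1) = ENNReal.ofReal (min c 1) ^ (1 : ℝ) := (ENNReal.rpow_one _).symm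
    _ ≤ ENNReal.ofReal (min c 1) ^ (1 / N : ℝ) := by
        refine ENNReal.rpow_le_rpow_of_exponent_ge h2 ?_
        rw [div_le_one (by positivity)]
        exact hN1
    _ ≤ (‖a‖ₑ ^ 2 * ENNReal.ofReal v ^ N) ^ (1 / N : ℝ) :=
        ENNReal.rpow_le_rpow h1 (by positivity)
    _ = ‖a‖ₑ ^ (2 / N : ℝ) * ENNReal.ofReal v := by
        rw [ENNReal.mul_rpow_of_nonneg _ _ (by positivity), ← ENNReal.rpow_natCast,
          ← ENNReal.rpow_natCast, ← ENNReal.rpow_mul, ← ENNReal.rpow_mul,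
          mul_one_div_cancel hN0, ENNReal.rpow_one]
        congr 2
        push_cast
        ring

variable {Q : (Fin 2 → ℝ) → (Fin 2 → ℝ) → ℝ}
variable {g : X → Z} {S : Set Z} {ι : Type u} {U : ι → Set Z}
  {π : ι → Z → ((Fin 2 → ℝ) ≃L[ℝ] ℂ)} {u : ι → Z → ℂ → X}

/-- a fibre coordinate on an open set -/
theorem exists_W (hT : IsTorusFamily E E' g S Q U π u) (hg : ∀ x, HolM E E' g x)
    (e₀ : E ≃L[ℂ] (E' × ℂ)) {G : Set X} (hG : IsOpen G) (b : ι) (hGb : ∀ x ∈ G, g x ∈ U b)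
    (x : X) : ∃ (W : Set X) (ζ : X → ℂ), IsOpen W ∧ (x ∈ G → x ∈ W) ∧ W ⊆ G ∧
      ∀ z ∈ W, TorCoord E E' g u b z ζ := by
  classical
  by_cases hx : x ∈ G
  · obtain ⟨ζ, h1, h2, h3⟩ := hT.coord b x (hGb x hx)
    have h4 : ∀ᶠ z in 𝓝 x, z ∈ G ∧ TorCoord E E' g u b z ζ := by
      filter_upwards [hG.mem_nhds hx, HolV.eventually (show HolV E ζ x from h1),
        eventually_eventually_nhds.2 h2, ker_eventually hg e₀ h1 h3] with z h4 h5 h6 h7
      exact ⟨h4, h5, h6, h7⟩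
    obtain ⟨W, hW1, hW2, hW3⟩ := eventually_nhds_iff.1 h4
    exact ⟨W, ζ, hW2, fun _ => hW3, fun z hz => (hW1 z hz).1, fun z hz => (hW1 z hz).2⟩
  · exact ⟨∅, fun _ => 0, isOpen_empty, fun h => absurd h hx, empty_subset _, fun z hz =>
      absurd hz (notMem_empty z)⟩

variable [MeasurableSpace E] [BorelSpace E] [MeasurableSpace E'] [BorelSpace E']
  (μ : Measure E) [μ.IsAddHaarMeasure] (ν : Measure E') [ν.IsAddHaarMeasure]

/-- **M4, (M): the push-forward inequality for families of elliptic curves.** -/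
theorem conc [CompactSpace X] [T2Space Z] (hT : IsTorusFamily E E' g S Q U π u)
    (hg : ∀ x, HolM E E' g x) (e₀ : E ≃L[ℂ] (E' × ℂ)) {κ : Type*} (K : Finset κ) {wt : κ → ℕ}
    (hwt : ∀ k ∈ K, 0 < wt k) {Θ : κ → X → ℂ} {A : κ → ι → Z → ℂ}
    (hA : ∀ k ∈ K, ∀ b y, y ∈ U b → ContinuousAt (A k b) y)
    (hΘ : ∀ k ∈ K, ∀ b x ζ, g x ∈ U b → TorCoord E E' g u b x ζ →
      Θ k x = A k b (g x) * JP e₀ (dM E E' g x) (dV E ζ x) ^ wt k)
    {c : ℝ} (hlow : ∀ b, ∀ y ∈ U b, ∃ k ∈ K, c ≤ ‖A k b y‖ ^ 2 * cov (π b y) ^ wt k)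
    (z₀ : Z) {N : X → Set X} (hN : ∀ x, g x = z₀ → N x ∈ 𝓝 x) {O₁ : Set Z} (hO₁ : O₁ ∈ 𝓝 z₀) :
    ∃ (Jf : Finset X) (O : Set Z), (∀ x ∈ Jf, g x = z₀) ∧ IsOpen O ∧ z₀ ∈ O ∧ O ⊆ O₁ ∧
      O ⊆ (chartAt E' z₀).source ∧ ∀ ρ : E' → ℝ≥0∞, Measurable ρ →
        ENNReal.ofReal (min c 1) * ∫⁻ w in chartAt E' z₀ '' (O \ S), ρ w ∂ν ≤
          haarC μ ν (eR e₀) * ∑ k ∈ K, ∑ x ∈ Jf,
            ∫⁻ v in chartAt E x '' (N x ∩ (chartAt E x).source),
              ρ (chartAt E' z₀ (g ((chartAt E x).symm v))) *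
                ‖coefT E E' g x z₀ (wt k) (Θ k) ((chartAt E x).symm v)‖ₑ ^ (2 / wt k : ℝ) ∂μ := by
  classical
  have hgc : Continuous g := continuous_iff_continuousAt.2 fun x => (hg x).continuousAt
  set χ := chartAt E' z₀ with hχ
  -- the neighbourhoods
  set No : X → Set X := fun x => interior (N x) ∩ (chartAt E x).source with hNo
  have hNoo : ∀ x, IsOpen (No x) := fun x => isOpen_interior.inter (chartAt E x).open_source
  have hNom : ∀ x, g x = z₀ → x ∈ No x := fun x hx =>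
    ⟨mem_interior_iff_mem_nhds.2 (hN x hx), mem_chart_source E x⟩
  have hKc : IsCompact (g ⁻¹' {z₀}) := (isClosed_singleton.preimage hgc).isCompact
  obtain ⟨Jf, hJ1, hJ2⟩ := hKc.elim_nhds_subcover No fun x hx => (hNoo x).mem_nhds (hNom x hx)
  have hNN : IsOpen (⋃ x ∈ Jf, No x) := isOpen_biUnion fun x _ => hNoo x
  have hcl : IsClosed (g '' (⋃ x ∈ Jf, No x)ᶜ) :=
    (hNN.isClosed_compl.isCompact.image hgc).isClosed
  set O : Set Z := (g '' (⋃ x ∈ Jf, No x)ᶜ)ᶜ ∩ interior O₁ ∩ χ.source with hO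
  have hOo : IsOpen O := (hcl.isOpen_compl.inter isOpen_interior).inter χ.open_source
  have hOz : z₀ ∈ O := by
    refine ⟨⟨?_, mem_interior_iff_mem_nhds.2 hO₁⟩, mem_chart_source E' z₀⟩
    rintro ⟨x, hx, hx'⟩
    exact hx (hJ2 hx')
  have hOc : ∀ x, g x ∈ O → ∃ x₀ ∈ Jf, x ∈ No x₀ := by
    intro x hx
    by_contra h
    push Not at h
    refine hx.1.1 ⟨x, fun h1 => ?_, rfl⟩
    obtain ⟨x₀, hx₀, h2⟩ := mem_iUnion₂.1 h1
    exact h x₀ hx₀ h2
  have hOs : O ⊆ χ.source := fun z hz => hz.2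
  refine ⟨Jf, O, fun x hx => hJ1 x hx, hOo, hOz, fun z hz => interior_subset hz.1.2, hOs, ?_⟩
  intro ρ hρ
  -- the base
  have hopn : ∀ b, IsOpen (χ '' (O ∩ U b)) := fun b =>
    χ.isOpen_image_of_subset_source (hOo.inter (hT.isOpen b)) fun z hz => hOs hz.1
  obtain ⟨T, hTc, hTU⟩ := TopologicalSpace.isOpen_iUnion_countable (fun b => χ '' (O ∩ U b)) hopn
  have : Countable {b // b ∈ T} := hTc.to_subtype
  have hSU : O \ S = ⋃ b, O ∩ U b := by
    ext z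
    rw [mem_iUnion]
    constructor
    · rintro ⟨h1, h2⟩
      obtain ⟨b, hb⟩ := (hT.cover z).1 h2
      exact ⟨b, h1, hb⟩
    · rintro ⟨b, h1, h2⟩
      exact ⟨h1, (hT.cover z).2 ⟨b, h2⟩⟩
  have hVeq : χ '' (O \ S) = ⋃ b ∈ T, χ '' (O ∩ U b) := by
    rw [hTU, hSU, image_iUnion]
  have hVo : IsOpen (χ '' (O \ S)) := by
    rw [hVeq]
    exact isOpen_biUnion fun b _ => hopn b
  -- the total space
  set G : X → ι → Set X := fun x₀ b => No x₀ ∩ g ⁻¹' (O ∩ U b) with hG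
  have hGo : ∀ x₀ b, IsOpen (G x₀ b) := fun x₀ b =>
    (hNoo x₀).inter ((hOo.inter (hT.isOpen b)).preimage hgc)
  choose W ζ hWo hWx hWG hWT using fun x₀ b => exists_W hT hg e₀ (hGo x₀ b) b (fun x hx => hx.2.2)
  have hWs : ∀ x₀ b x, W x₀ b x ⊆ (chartAt E x₀).source := fun x₀ b x z hz =>
    (hWG x₀ b x hz).1.2
  have hWio : ∀ x₀ b x, IsOpen (chartAt E x₀ '' (W x₀ b x)) := fun x₀ b x =>
    (chartAt E x₀).isOpen_image_of_subset_source (hWo x₀ b x) (hWs x₀ b x)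
  choose C hCc hCU using fun x₀ b => TopologicalSpace.isOpen_iUnion_countable
    (fun x => chartAt E x₀ '' (W x₀ b x)) (hWio x₀ b)
  have hCco : ∀ x₀ b, Countable {x // x ∈ C x₀ b} := fun x₀ b => (hCc x₀ b).to_subtype
  have h := push μ ν (eR e₀) (J := {x // x ∈ Jf}) (α := {b // b ∈ T})
    (ι := (x₀ : {x // x ∈ Jf}) × (b : {b // b ∈ T}) × {x // x ∈ C x₀.1 b.1}) K
    (B := fun x₀ => chartAt E x₀.1 '' (N x₀.1 ∩ (chartAt E x₀.1).source))
    (F := fun k x₀ v => ρ (χ (g ((chartAt E x₀.1).symm v))) *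
      ‖coefT E E' g x₀.1 z₀ (wt k) (Θ k) ((chartAt E x₀.1).symm v)‖ₑ ^ (2 / wt k : ℝ))
    (V := χ '' (O \ S)) (U := fun b => χ '' (O ∩ U b.1))
    (ρ := fun k b w => ρ w * ‖A k b.1 (χ.symm w)‖ₑ ^ (2 / wt k : ℝ))
    (P := fun b w => π b.1 (χ.symm w)) (h := fun w => ENNReal.ofReal (min c 1) * ρ w)
    (a := fun t => t.2.1) (j := fun t => t.1)
    (R := fun t => chartAt E t.1.1 '' (W t.1.1 t.2.1.1 t.2.2.1))
    (Ψ := fun t v => (χ (g ((chartAt E t.1.1).symm v)),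
      ζ t.1.1 t.2.1.1 t.2.2.1 ((chartAt E t.1.1).symm v)))
    (Ψ' := fun t v => (fderiv ℂ (fun v => (χ (g ((chartAt E t.1.1).symm v)),
      ζ t.1.1 t.2.1.1 t.2.2.1 ((chartAt E t.1.1).symm v))) v).restrictScalars ℝ)
    (g := fun x₀ v => χ (g ((chartAt E x₀.1).symm v)))
    hVo.measurableSet (fun b => (hopn b.1).measurableSet)
    (Eventually.of_forall fun z hz => by
      rw [hVeq] at hz
      obtain ⟨b, hb, hb'⟩ := mem_iUnion₂.1 hz
      exact ⟨⟨b, hb⟩, hb'⟩)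
    (fun t => (hWio _ _ _).measurableSet)
    (fun t => image_mono fun z hz => ⟨interior_subset (hWG _ _ _ hz).1.1, hWs _ _ _ hz⟩)
    (by
      rintro t _ ⟨z, hz, rfl⟩
      have h1 := (chart_det hg e₀ (hWs _ _ _ hz) (hOs (hWG _ _ _ hz).2.1) (z₀ := z₀)
        (hWT _ _ _ z hz).1).1
      exact (h1.restrictScalars ℝ).hasFDerivWithinAt)
    (by
      rintro t _ ⟨z, hz, rfl⟩ _ ⟨z', hz', rfl⟩ he
      have e1 := (chartAt E t.1.1).left_inv (hWs _ _ _ hz)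
      have e2 := (chartAt E t.1.1).left_inv (hWs _ _ _ hz')
      simp only [e1, e2, Prod.mk.injEq] at he
      have h1 := χ.injOn (hOs (hWG _ _ _ hz).2.1) (hOs (hWG _ _ _ hz').2.1) he.1
      have h2 := (hWT _ _ _ z hz).2.1.self_of_nhds
      have h3 := (hWT _ _ _ z' hz').2.1.self_of_nhds
      rw [← h2, ← h3, h1, he.2])
    (fun t x _ => rfl)
    (by
      rintro ⟨x₀, b, x⟩ ⟨x₀', b', x'⟩ h1 h2 v hv
      simp only at h1 h2
      subst h1 h2
      obtain ⟨⟨z, hz, rfl⟩, ⟨z', hz', he⟩⟩ := hv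
      have hzz : z' = z := (chartAt E x₀.1).injOn (hWs _ _ _ hz') (hWs _ _ _ hz) he
      subst hzz
      have e1 := (chartAt E x₀.1).left_inv (hWs _ _ _ hz)
      have e3 := χ.left_inv (hOs (hWG _ _ _ hz).2.1)
      simp only [e1, e3]
      have h2 := (hWT _ _ _ _ hz).2.1.self_of_nhds
      have h3 := (hWT _ _ _ _ hz').2.1.self_of_nhds
      exact ((hT.unif b.1 (g z') (hWG _ _ _ hz).2.2 _ _).2).1 (h2.trans h3.symm))
    (by
      intro k hk b
      have hm : MeasurableSet (χ '' (O \ S) ∩ χ '' (O ∩ U b.1)) :=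
        (hVo.inter (hopn b.1)).measurableSet
      have h1 : Measurable ((χ '' (O \ S) ∩ χ '' (O ∩ U b.1)).indicator
          fun w => ‖A k b.1 (χ.symm w)‖ₑ ^ (2 / wt k : ℝ)) := by
        have h2 : Measurable ((χ '' (O \ S) ∩ χ '' (O ∩ U b.1)).indicator
            fun w => A k b.1 (χ.symm w)) := by
          rw [← piecewise_eq_indicator]
          refine ContinuousOn.measurable_piecewise ?_ continuousOn_const hm
          rintro _ ⟨_, ⟨z, hz, rfl⟩⟩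
          have hzs : χ z ∈ χ.target := χ.map_source (hOs hz.1)
          have h3 : ContinuousAt (A k b.1) (χ.symm (χ z)) := by
            rw [χ.left_inv (hOs hz.1)]
            exact hA k hk b.1 z hz.2
          exact (h3.comp (χ.continuousAt_symm hzs)).continuousWithinAt
        have h3 := (h2.enorm).pow_const (2 / wt k : ℝ)
        have hwk : 0 < (2 / wt k : ℝ) := by
          have := hwt k hk
          positivity
        convert h3 using 1
        funext w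
        by_cases hw : w ∈ χ '' (O \ S) ∩ χ '' (O ∩ U b.1)
        · simp only [indicator_of_mem hw]
        · simp only [indicator_of_notMem hw, enorm_zero]
          rw [ENNReal.zero_rpow_of_pos hwk]
      have h4 := hρ.mul h1
      convert h4 using 1
      funext w
      by_cases hw : w ∈ χ '' (O \ S) ∩ χ '' (O ∩ U b.1)
      · simp only [indicator_of_mem hw, Pi.mul_apply]
      · simp only [indicator_of_notMem hw, Pi.mul_apply, mul_zero])
    (by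
      rintro b w ⟨-, ⟨z, hz, rfl⟩⟩ s
      have e3 := χ.left_inv (hOs hz.1)
      simp only [e3]
      set x := u b.1 z s with hx
      have hgx : g x = z := (hT.unif b.1 z hz.2 s s).1
      obtain ⟨x₀, hx₀, hxN⟩ := hOc x (by rw [hgx]; exact hz.1)
      have hxG : x ∈ G x₀ b.1 := ⟨hxN, by
        change g x ∈ O ∩ U b.1
        rw [hgx]
        exact hz⟩
      have h1 : chartAt E x₀ x ∈ ⋃ y, chartAt E x₀ '' (W x₀ b.1 y) :=
        mem_iUnion.2 ⟨x, x, hWx _ _ _ hxG, rfl⟩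
      rw [← hCU] at h1
      obtain ⟨y, hy, hy'⟩ := mem_iUnion₂.1 h1
      obtain ⟨x', hx', he⟩ := hy'
      have hxx : x' = x := (chartAt E x₀).injOn (hWs _ _ _ hx') hxN.2 he
      rw [hxx] at hx'
      have e1 := (chartAt E x₀).left_inv hxN.2
      have h2 := (hWT _ _ _ _ hx').2.1.self_of_nhds
      rw [hgx] at h2
      obtain ⟨m, hm⟩ := ((hT.unif b.1 z hz.2 _ _).2).1 (hx.symm.trans h2.symm)
      refine ⟨⟨⟨x₀, hx₀⟩, b, ⟨y, hy⟩⟩, rfl, chartAt E x₀ x, ⟨x, hx', rfl⟩, m, ?_⟩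
      simp only [e1, hgx, hm])
    (by
      rintro k hk t _ ⟨z, hz, rfl⟩ -
      have e1 := (chartAt E t.1.1).left_inv (hWs _ _ _ hz)
      have e3 := χ.left_inv (hOs (hWG _ _ _ hz).2.1)
      have h1 := (chart_det hg e₀ (hWs _ _ _ hz) (hOs (hWG _ _ _ hz).2.1) (z₀ := z₀)
        (hWT _ _ _ z hz).1).2
      rw [h1]
      simp only [e1, e3]
      refine le_of_eq ?_
      exact integrand (wt k) (hwt k hk) _ _ _ _ _ _
        (hΘ k hk _ _ _ (hWG _ _ _ hz).2.2 (hWT _ _ _ z hz)))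
    (by
      rintro b w ⟨-, ⟨z, hz, rfl⟩⟩
      have e3 := χ.left_inv (hOs hz.1)
      simp only [e3]
      obtain ⟨k, hk, hkc⟩ := hlow b.1 z hz.2
      have h1 := lower (hwt k hk) (abs_nonneg _) hkc
      calc ENNReal.ofReal (min c 1) * ρ (χ z)
          ≤ (‖A k b.1 z‖ₑ ^ (2 / wt k : ℝ) * ENNReal.ofReal (cov (π b.1 z))) * ρ (χ z) :=
            mul_le_mul_left h1 _
        _ = ρ (χ z) * ‖A k b.1 z‖ₑ ^ (2 / wt k : ℝ) * ENNReal.ofReal (cov (π b.1 z)) := by ring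
        _ ≤ _ := Finset.single_le_sum (f := fun k => ρ (χ z) * ‖A k b.1 z‖ₑ ^ (2 / wt k : ℝ) *
            ENNReal.ofReal (cov (π b.1 z))) (fun _ _ => bot_le) hk)
  rw [lintegral_const_mul _ hρ] at h
  refine h.trans (le_of_eq ?_)
  congr 1
  refine Finset.sum_congr rfl fun k _ => ?_
  exact (Finset.sum_coe_sort Jf fun x => ∫⁻ v in chartAt E x '' (N x ∩ (chartAt E x).source),
    ρ (χ (g ((chartAt E x).symm v))) *
      ‖coefT E E' g x z₀ (wt k) (Θ k) ((chartAt E x).symm v)‖ₑ ^ (2 / wt k : ℝ) ∂μ)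

end Fam

end Vale.Agent.P281.H125.TM
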