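import Vale.Agent.P281.H125.TM.Conc
import Vale.Agent.P281.H364.TM.Meas

/-!
# P281, project T-M (helper125), block M4: the contradiction
-/

open scoped Manifold ContDiff Topology ENNReal
open Set Filter Metric Module MeasureTheory

namespace Vale.Agent.P281.H125.TM

open Vale.Agent.P281 Vale.Agent.P281.MF Vale.Agent.P281.ISO Vale.Agent.P281.ELL
open Vale.Agent.P281.H713

set_option linter.unusedSectionVars false

universe u

section Top

variable {E' : Type} [NormedAddCommGroup E'] [NormedSpace ℂ E'] [FiniteDimensional ℂ E']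

/-- splitting off a linear form -/
noncomputable def splitE (ℓ : E' →L[ℂ] ℂ) (v : E') (hv : ℓ v = 1) :
    E' ≃L[ℂ] (LinearMap.ker (ℓ : E' →ₗ[ℂ] ℂ) × ℂ) :=
  LinearEquiv.toContinuousLinearEquiv
    { toFun := fun w => (⟨w - ℓ w • v, by
        rw [LinearMap.mem_ker]
        change ℓ (w - ℓ w • v) = 0
        rw [map_sub, map_smul, hv, smul_eq_mul, mul_one, sub_self]⟩, ℓ w)
      map_add' := fun w w' => by
        refine Prod.ext (Subtype.ext ?_) (map_add ℓ w w')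
        change (w + w') - ℓ (w + w') • v = (w - ℓ w • v) + (w' - ℓ w' • v)
        rw [map_add, add_smul]
        abel
      map_smul' := fun c w => by
        refine Prod.ext (Subtype.ext ?_) (map_smul ℓ c w)
        change c • w - ℓ (c • w) • v = c • (w - ℓ w • v)
        rw [map_smul, smul_sub, smul_smul, smul_eq_mul]
      invFun := fun p => (p.1 : E') + p.2 • v
      left_inv := fun w => by
        change (w - ℓ w • v) + ℓ w • v = w
        abel
      right_inv := fun p => by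
        obtain ⟨⟨h, hh⟩, t⟩ := p
        have h1 : ℓ h = 0 := hh
        refine Prod.ext (Subtype.ext ?_) ?_
        · change (h + t • v) - ℓ (h + t • v) • v = h
          rw [map_add, map_smul, h1, hv, zero_add, smul_eq_mul, mul_one]
          abel
        · change ℓ (h + t • v) = t
          rw [map_add, map_smul, h1, hv, zero_add, smul_eq_mul, mul_one] }

theorem splitE_snd (ℓ : E' →L[ℂ] ℂ) (v : E') (hv : ℓ v = 1) (w : E') :
    (splitE ℓ v hv w).2 = ℓ w := rfl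

variable [MeasurableSpace E'] [BorelSpace E'] (ν : Measure E') [ν.IsAddHaarMeasure]

theorem q_top_aux {H : Type} [NormedAddCommGroup H] [NormedSpace ℂ H] [FiniteDimensional ℂ H]
    [MeasurableSpace H] [BorelSpace H] (νH : Measure H) [νH.IsAddHaarMeasure]
    {q : E' → ℂ} {w₀ : E'} (hq : ContDiffAt ℂ ω q w₀) (h0 : q w₀ = 0)
    (e : E' ≃L[ℂ] H × ℂ) (he : ∀ w, (e w).2 = fderiv ℂ q w₀ w) {G : Set E'} (hG : G ∈ 𝓝 w₀) :
    ∫⁻ w in G, (‖q w‖ₑ ^ 2)⁻¹ ∂ν = ⊤ := by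
  set ℓ := fderiv ℂ q w₀ with hℓ
  set p : E' →L[ℂ] H := (ContinuousLinearMap.fst ℂ H ℂ).comp (e : E' →L[ℂ] H × ℂ) with hp
  set Ψ : E' → H × ℂ := fun w => (p w, q w) with hΨ
  have hst : HasStrictFDerivAt q ℓ w₀ := hq.hasStrictFDerivAt (by simp)
  have hpe : p.prod ℓ = (e : E' →L[ℂ] H × ℂ) := by
    ext w
    · rfl
    · exact (he w).symm
  have hΨs : HasStrictFDerivAt Ψ (e : E' →L[ℂ] H × ℂ) w₀ := by
    rw [← hpe]
    exact p.hasStrictFDerivAt.prodMk hst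
  set D : E' → E' →L[ℂ] E' := fun w =>
    (e.symm : H × ℂ →L[ℂ] E').comp (p.prod (fderiv ℂ q w)) with hD
  have hfc : ContinuousAt (fun w => fderiv ℂ q w) w₀ :=
    (hq.fderiv_right (m := ω) (by simp)).continuousAt
  have hDc : ContinuousAt (fun w => ‖(D w).det‖ ^ 2) w₀ := by
    have h1 : ContinuousAt D w₀ := by
      have h2 : Continuous fun B : E' →L[ℂ] ℂ => (e.symm : H × ℂ →L[ℂ] E').comp (p.prod B) := by
        have h3 : (fun B : E' →L[ℂ] ℂ => (e.symm : H × ℂ →L[ℂ] E').comp (p.prod B)) = fun B =>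
            (e.symm : H × ℂ →L[ℂ] E').comp ((ContinuousLinearMap.inl ℂ H ℂ).comp p +
              (ContinuousLinearMap.inr ℂ H ℂ).comp B) := by
          funext B
          congr 1
          ext w <;> simp
        rw [h3]
        fun_prop
      exact h2.continuousAt.comp hfc
    exact ((ContinuousLinearMap.continuous_det.continuousAt.comp h1).norm).pow 2
  set M : ℝ := ‖(D w₀).det‖ ^ 2 + 1 with hM
  set Φ := hΨs.toOpenPartialHomeomorph Ψ with hΦ
  have hev : ∀ᶠ w in 𝓝 w₀, w ∈ Φ.source ∧ w ∈ G ∧ ContDiffAt ℂ ω q w ∧ ‖(D w).det‖ ^ 2 < M := by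
    filter_upwards [Φ.open_source.mem_nhds (hΨs.mem_toOpenPartialHomeomorph_source), hG,
      hq.eventually (by simp), hDc.eventually_lt_const (show ‖(D w₀).det‖ ^ 2 < M by
        rw [hM]; exact lt_add_one _)] with w h1 h2 h3 h4
    exact ⟨h1, h2, h3, h4⟩
  obtain ⟨R, hR1, hR2, hR3⟩ := _root_.eventually_nhds_iff.1 hev
  have hRs : R ⊆ Φ.source := fun w hw => (hR1 w hw).1
  have hinj : InjOn Ψ R := fun w hw w' hw' h => Φ.injOn (hRs hw) (hRs hw') h
  have hder : ∀ w ∈ R, HasFDerivWithinAt Ψ ((p.prod (fderiv ℂ q w)).restrictScalars ℝ) R w := by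
    intro w hw
    have h1 : HasFDerivAt Ψ (p.prod (fderiv ℂ q w)) w :=
      p.hasFDerivAt.prodMk ((hR1 w hw).2.2.1.differentiableAt (by simp)).hasFDerivAt
    exact (h1.restrictScalars ℝ).hasFDerivWithinAt
  obtain ⟨-, hch⟩ := chg ν νH (eR e) hR2.measurableSet hder hinj
  have hch := hch fun p => (‖p.2‖ₑ ^ 2)⁻¹
  have himo : IsOpen (Ψ '' R) := Φ.isOpen_image_of_subset_source hR2 hRs
  have hnb : Ψ '' R ∈ 𝓝 (Ψ w₀) := himo.mem_nhds ⟨w₀, hR3, rfl⟩
  have hΨ0 : Ψ w₀ = (p w₀, 0) := by rw [hΨ]; simp only [h0]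
  rw [hΨ0, nhds_prod_eq] at hnb
  obtain ⟨s, hs, t, ht, hst'⟩ := mem_prod_iff.1 hnb
  obtain ⟨r, hr, hrt⟩ := Metric.mem_nhds_iff.1 ht
  have hleft : ∫⁻ p in Ψ '' R, (‖p.2‖ₑ ^ 2)⁻¹ ∂(νH.prod volume) = ⊤ := by
    rw [← top_le_iff]
    have hs' : interior s ∈ 𝓝 (p w₀) := interior_mem_nhds.2 hs
    have hmeas : Measurable fun p : H × ℂ => (‖p.2‖ₑ ^ 2)⁻¹ := by fun_prop
    calc (⊤ : ℝ≥0∞) = ∫⁻ x in interior s, ⊤ ∂νH := by
          rw [lintegral_const, Measure.restrict_apply MeasurableSet.univ, univ_inter,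
            ENNReal.top_mul (isOpen_interior.measure_pos νH ⟨_, mem_of_mem_nhds hs'⟩).ne']
      _ = ∫⁻ x in interior s, (∫⁻ y in ball (0 : ℂ) r, (‖y‖ₑ ^ 2)⁻¹) ∂νH := by
          rw [Vale.Agent.P281.H364.TM.lint_top hr]
      _ = ∫⁻ p in interior s ×ˢ ball (0 : ℂ) r, (‖p.2‖ₑ ^ 2)⁻¹ ∂(νH.prod volume) :=
          (setLIntegral_prod _ hmeas.aemeasurable).symm
      _ ≤ _ := lintegral_mono_set ((Set.prod_mono interior_subset hrt).trans hst')
  rw [hleft] at hch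
  by_contra hne
  have hfin : ∫⁻ x in R, ENNReal.ofReal
      |(((eR e).symm : H × ℂ →L[ℝ] E') ∘L (p.prod (fderiv ℂ q x)).restrictScalars ℝ).det| *
        (‖(Ψ x).2‖ₑ ^ 2)⁻¹ ∂ν < ⊤ := by
    calc _ ≤ ∫⁻ x in R, ENNReal.ofReal M * (‖q x‖ₑ ^ 2)⁻¹ ∂ν := by
          refine setLIntegral_mono' hR2.measurableSet fun x hx => ?_
          refine mul_le_mul_left (ENNReal.ofReal_le_ofReal ?_) _
          have h1 : (((eR e).symm : H × ℂ →L[ℝ] E') ∘L
              (p.prod (fderiv ℂ q x)).restrictScalars ℝ).det = ‖(D x).det‖ ^ 2 := by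
            rw [← det_re]
            rfl
          rw [h1, abs_of_nonneg (by positivity)]
          exact (hR1 x hx).2.2.2.le
      _ = ENNReal.ofReal M * ∫⁻ x in R, (‖q x‖ₑ ^ 2)⁻¹ ∂ν :=
          lintegral_const_mul' _ _ ENNReal.ofReal_ne_top
      _ < ⊤ := by
          refine ENNReal.mul_lt_top ENNReal.ofReal_lt_top ?_
          exact (lintegral_mono_set fun x hx => (hR1 x hx).2.1).trans_lt (lt_top_iff_ne_top.2 hne)
  exact absurd hch.symm (ENNReal.mul_lt_top (lt_top_iff_ne_top.2 (haarC_ne_top ν νH (eR e)))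
    hfin).ne

/-- `∫ |q|⁻² = ∞` near a smooth zero of `q` -/
theorem q_top {q : E' → ℂ} {w₀ : E'} (hq : ContDiffAt ℂ ω q w₀) (h0 : q w₀ = 0)
    (hd : fderiv ℂ q w₀ ≠ 0) {G : Set E'} (hG : G ∈ 𝓝 w₀) :
    ∫⁻ w in G, (‖q w‖ₑ ^ 2)⁻¹ ∂ν = ⊤ := by
  obtain ⟨v, hv⟩ : ∃ v, fderiv ℂ q w₀ v = 1 := by
    by_contra h
    push Not at h
    apply hd
    ext v
    by_contra hv
    have hv' : fderiv ℂ q w₀ v ≠ 0 := hv
    apply h ((fderiv ℂ q w₀ v)⁻¹ • v)
    rw [map_smul, smul_eq_mul, inv_mul_cancel₀ hv']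
  have : ProperSpace (LinearMap.ker (fderiv ℂ q w₀ : E' →ₗ[ℂ] ℂ)) := FiniteDimensional.proper ℂ _
  exact q_top_aux ν (Measure.addHaar : Measure (LinearMap.ker (fderiv ℂ q w₀ : E' →ₗ[ℂ] ℂ)))
    hq h0 (splitE (fderiv ℂ q w₀) v hv) (fun w => splitE_snd _ v hv w) hG

end Top

section Core

variable {E E' : Type} [NormedAddCommGroup E] [NormedSpace ℂ E] [FiniteDimensional ℂ E]
  [NormedAddCommGroup E'] [NormedSpace ℂ E'] [FiniteDimensional ℂ E']
variable {X Z : Type u} [TopologicalSpace X] [ChartedSpace E X] [IsManifold 𝓘(ℂ, E) ω X]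
  [TopologicalSpace Z] [ChartedSpace E' Z] [IsManifold 𝓘(ℂ, E') ω Z]
variable {Q : (Fin 2 → ℝ) → (Fin 2 → ℝ) → ℝ}
variable {g : X → Z} {S : Set Z} {ι : Type u} {U : ι → Set Z}
  {π : ι → Z → ((Fin 2 → ℝ) ≃L[ℝ] ℂ)} {u : ι → Z → ℂ → X}
variable [MeasurableSpace E] [BorelSpace E] [MeasurableSpace E'] [BorelSpace E']
  (μ : Measure E) [μ.IsAddHaarMeasure] (ν : Measure E') [ν.IsAddHaarMeasure]

/-- **M4: the contradiction.**  If `q` is a local equation of a smooth divisor at `z₀`, the integrals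
of `|q|⁻² |Θ_k ∧ (dw)^k| ^ (2 / k)` cannot all be finite near the points over `z₀`. -/
theorem core [CompactSpace X] [T2Space Z] (hT : IsTorusFamily E E' g S Q U π u)
    (hg : ∀ x, HolM E E' g x) (e₀ : E ≃L[ℂ] (E' × ℂ)) {κ : Type*} (K : Finset κ) {wt : κ → ℕ}
    (hwt : ∀ k ∈ K, 0 < wt k) {Θ : κ → X → ℂ} {A : κ → ι → Z → ℂ}
    (hA : ∀ k ∈ K, ∀ b y, y ∈ U b → ContinuousAt (A k b) y)
    (hΘ : ∀ k ∈ K, ∀ b x ζ, g x ∈ U b → TorCoord E E' g u b x ζ →
      Θ k x = A k b (g x) * JP e₀ (dM E E' g x) (dV E ζ x) ^ wt k)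
    {c : ℝ} (hc : 0 < c)
    (hlow : ∀ b, ∀ y ∈ U b, ∃ k ∈ K, c ≤ ‖A k b y‖ ^ 2 * cov (π b y) ^ wt k)
    {z₀ : Z} {q : Z → ℂ} (hq : HolV E' q z₀) (hq0 : q z₀ = 0) (hdq : dV E' q z₀ ≠ 0)
    (hS : ν (chartAt E' z₀ '' (S ∩ (chartAt E' z₀).source)) = 0)
    (hfin : ∀ x, g x = z₀ → ∀ k ∈ K, ∃ r : ℝ, 0 < r ∧
      ∫⁻ v in ball (chartAt E x x) r, (‖q (g ((chartAt E x).symm v))‖ₑ ^ 2)⁻¹ *
        ‖coefT E E' g x z₀ (wt k) (Θ k) ((chartAt E x).symm v)‖ₑ ^ (2 / wt k : ℝ) ∂μ < ⊤) :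
    False := by
  classical
  have hgc : Continuous g := continuous_iff_continuousAt.2 fun x => (hg x).continuousAt
  set χ := chartAt E' z₀ with hχ
  choose! r hr0 hr using hfin
  -- the domain of `q`
  obtain ⟨O₁, hO1, hO2, hO3⟩ := _root_.eventually_nhds_iff.1 ((hq.eventually).and
    (χ.open_source.mem_nhds (mem_chart_source E' z₀)))
  have hO1s : O₁ ⊆ χ.source := fun z hz => (hO1 z hz).2
  have hχO : IsOpen (χ '' O₁) := χ.isOpen_image_of_subset_source hO2 hO1s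
  set qi : E' → ℂ := (χ '' O₁).indicator fun w => q (χ.symm w) with hqi
  have hqim : Measurable qi := by
    rw [hqi, ← piecewise_eq_indicator]
    refine ContinuousOn.measurable_piecewise ?_ continuousOn_const hχO.measurableSet
    rintro _ ⟨z, hz, rfl⟩
    have h3 : ContinuousAt q (χ.symm (χ z)) := by
      rw [χ.left_inv (hO1s hz)]
      exact (hO1 z hz).1.continuousAt
    exact (h3.comp (χ.continuousAt_symm (χ.map_source (hO1s hz)))).continuousWithinAt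
  set ρ : E' → ℝ≥0∞ := (χ '' O₁).indicator fun w => (‖qi w‖ₑ ^ 2)⁻¹ with hρd
  have hρ : Measurable ρ := Measurable.indicator (by fun_prop) hχO.measurableSet
  have hρe : ∀ z ∈ O₁, ρ (χ z) = (‖q z‖ₑ ^ 2)⁻¹ := by
    intro z hz
    have hm : χ z ∈ χ '' O₁ := ⟨z, hz, rfl⟩
    rw [hρd, indicator_of_mem hm, hqi, indicator_of_mem hm, χ.left_inv (hO1s hz)]
  set N : X → Set X := fun x => ((chartAt E x).source ∩ g ⁻¹' O₁) ∩
    ⋂ k ∈ K, {y | chartAt E x y ∈ ball (chartAt E x x) (r x k)} with hN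
  have hNm : ∀ x, g x = z₀ → N x ∈ 𝓝 x := by
    intro x hx
    refine inter_mem (inter_mem ((chartAt E x).open_source.mem_nhds (mem_chart_source E x))
      (hgc.continuousAt.preimage_mem_nhds ?_)) ?_
    · rw [hx]
      exact hO2.mem_nhds hO3
    · refine (biInter_finset_mem K).2 fun k hk => ?_
      exact ((chartAt E x).continuousAt (mem_chart_source E x)).preimage_mem_nhds
        (ball_mem_nhds _ (hr0 x hx k hk))
  obtain ⟨Jf, O, hJ, hOo, hOz, hOO, hOs, hmain⟩ := conc μ ν hT hg e₀ K hwt hA hΘ hlow z₀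
    (N := N) hNm (hO2.mem_nhds hO3)
  have h := hmain ρ hρ
  -- the left side
  have hleft : ∫⁻ w in χ '' (O \ S), ρ w ∂ν = ⊤ := by
    rw [← top_le_iff]
    have h1 : ∫⁻ w in χ '' O, (‖q (χ.symm w)‖ₑ ^ 2)⁻¹ ∂ν = ⊤ := by
      refine q_top ν (hq.rep (mem_chart_source E' z₀)) ?_ ?_
        ((χ.isOpen_image_of_subset_source hOo hOs).mem_nhds ⟨z₀, hOz, rfl⟩)
      · change q (χ.symm (χ z₀)) = 0
        rw [χ.left_inv (mem_chart_source E' z₀), hq0]
      · intro h2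
        apply hdq
        have h3 : dV E' q z₀ = (fderiv ℂ (q ∘ χ.symm) (χ z₀)).comp
            (dV E' (χ : Z → E') z₀) := dV_eq_chart (mem_chart_source E' z₀) hq
        have h4 : fderiv ℂ (q ∘ χ.symm) (χ z₀) = 0 := h2
        rw [h3, h4, ContinuousLinearMap.zero_comp]
    rw [← h1]
    have h2 : ∫⁻ w in χ '' O, (‖q (χ.symm w)‖ₑ ^ 2)⁻¹ ∂ν = ∫⁻ w in χ '' O, ρ w ∂ν := by
      refine setLIntegral_congr_fun (χ.isOpen_image_of_subset_source hOo hOs).measurableSet ?_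
      rintro _ ⟨z, hz, rfl⟩
      simp only
      rw [hρe z (hOO hz), χ.left_inv (hOs hz)]
    rw [h2]
    refine lintegral_mono_set' ?_
    have h3 : ∀ᵐ w ∂ν, w ∉ χ '' (S ∩ χ.source) := measure_eq_zero_iff_ae_notMem.1 hS
    filter_upwards [h3] with w hw hwO
    obtain ⟨z, hz, rfl⟩ := hwO
    exact ⟨z, ⟨hz, fun hzS => hw ⟨z, ⟨hzS, hOs hz⟩, rfl⟩⟩, rfl⟩
  -- the right side
  have hright : haarC μ ν (eR e₀) * ∑ k ∈ K, ∑ x ∈ Jf,
      ∫⁻ v in chartAt E x '' (N x ∩ (chartAt E x).source),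
        ρ (chartAt E' z₀ (g ((chartAt E x).symm v))) *
          ‖coefT E E' g x z₀ (wt k) (Θ k) ((chartAt E x).symm v)‖ₑ ^ (2 / wt k : ℝ) ∂μ < ⊤ := by
    refine ENNReal.mul_lt_top (lt_top_iff_ne_top.2 (haarC_ne_top μ ν (eR e₀)))
      (ENNReal.sum_lt_top.2 fun k hk => ENNReal.sum_lt_top.2 fun x hx => ?_)
    refine lt_of_le_of_lt ?_ (hr x (hJ x hx) k hk)
    have hsub : chartAt E x '' (N x ∩ (chartAt E x).source) ⊆ ball (chartAt E x x) (r x k) := by
      rintro _ ⟨y, ⟨hy, -⟩, rfl⟩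
      exact mem_iInter₂.1 hy.2 k hk
    refine le_trans ?_ (lintegral_mono_set hsub)
    refine setLIntegral_mono_ae' ?_ (Eventually.of_forall ?_)
    · refine IsOpen.measurableSet ((chartAt E x).isOpen_image_of_subset_source ?_
        inter_subset_right)
      have hNo : N x ∩ (chartAt E x).source = ((chartAt E x).source ∩ g ⁻¹' O₁) ∩
          ⋂ k ∈ K, ((chartAt E x).source ∩ chartAt E x ⁻¹' ball (chartAt E x x) (r x k)) := by
        ext y
        simp only [hN, mem_inter_iff, mem_iInter, mem_ofPred_eq, mem_preimage]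
        constructor
        · rintro ⟨⟨h1, h2⟩, h3⟩
          exact ⟨h1, fun k hk => ⟨h3, h2 k hk⟩⟩
        · rintro ⟨h1, h2⟩
          exact ⟨⟨h1, fun k hk => (h2 k hk).2⟩, h1.1⟩
      rw [hNo]
      refine ((chartAt E x).open_source.inter (hO2.preimage hgc)).inter ?_
      exact isOpen_biInter_finset fun k _ =>
        (chartAt E x).continuousOn.isOpen_inter_preimage (chartAt E x).open_source isOpen_ball
    · rintro _ ⟨y, ⟨hy, -⟩, rfl⟩
      have hys : y ∈ (chartAt E x).source := hy.1.1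
      have e1 := (chartAt E x).left_inv hys
      rw [e1, hρe (g y) hy.1.2]
  rw [hleft] at h
  have h5 : ENNReal.ofReal (min c 1) ≠ 0 := by
    rw [Ne, ENNReal.ofReal_eq_zero, not_le]
    exact lt_min hc one_pos
  rw [ENNReal.mul_top h5] at h
  exact absurd hright (not_lt.2 h)

end Core

end Vale.Agent.P281.H125.TM
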