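import Mathlib

/-!
# P281, project T-M (helper125), block M4: the push-forward inequality (measure theory only)
-/

open scoped Topology ENNReal Pointwise
open Set Filter Module MeasureTheory Metric

namespace Vale.Agent.P281.H125.TM

set_option linter.unusedSectionVars false

/-- the area of a period parallelogram of the lattice `P ℤ²` -/
noncomputable def cov (P : (Fin 2 → ℝ) ≃L[ℝ] ℂ) : ℝ :=
  |((starRingEnd ℂ) (P (Pi.single 0 1)) * P (Pi.single 1 1)).im|

/-! ### Translates which cover the plane -/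

theorem volI : volume (ZSpan.fundamentalDomain Complex.basisOneI) = 1 := by
  rw [measure_congr (ZSpan.fundamentalDomain_ae_parallelepiped Complex.basisOneI volume)]
  have := Complex.orthonormalBasisOneI.volume_parallelepiped
  simpa using this

theorem cov_le {ι : Type*} [Countable ι] (P : (Fin 2 → ℝ) ≃L[ℝ] ℂ) (T : ι → Set ℂ)
    (h : ∀ ζ : ℂ, ∃ i, ∃ n : Fin 2 → ℤ, ζ + P (fun j => (n j : ℝ)) ∈ T i) :
    ENNReal.ofReal (cov P) ≤ ∑' i, volume (T i) := by
  set b : Basis (Fin 2) ℝ ℂ := (Pi.basisFun ℝ (Fin 2)).map P.toLinearEquiv with hb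
  have hbi : ∀ i, b i = P (Pi.single i 1) := fun i => by
    simp [hb]
  have h1 : volume (ZSpan.fundamentalDomain b) = ENNReal.ofReal (cov P) := by
    rw [ZSpan.measure_fundamentalDomain b volume Complex.basisOneI, volI, mul_one]
    congr 2
    rw [Basis.det_apply, Matrix.det_fin_two]
    simp only [Basis.toMatrix_apply, Complex.coe_basisOneI_repr, hbi, Matrix.cons_val_zero,
      Matrix.cons_val_one, Complex.mul_im, Complex.conj_re, Complex.conj_im]
    ring
  have hD := ZSpan.isAddFundamentalDomain' b (volume : Measure ℂ)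
  have hc : Countable (Submodule.span ℤ (Set.range b)).toAddSubgroup :=
    inferInstanceAs (Countable (Submodule.span ℤ (Set.range b)))
  rw [← h1]
  have h2 : ZSpan.fundamentalDomain b ⊆ ⋃ i, ⋃ g : (Submodule.span ℤ (Set.range b)).toAddSubgroup,
      (g +ᵥ T i) ∩ ZSpan.fundamentalDomain b := by
    intro ζ hζ
    obtain ⟨i, n, hn⟩ := h ζ
    have hm : P (fun j => (n j : ℝ)) ∈ Submodule.span ℤ (Set.range b) := by
      have h3 : (fun j => (n j : ℝ)) = ∑ j, (n j : ℝ) • (Pi.single j (1 : ℝ) : Fin 2 → ℝ) := by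
        ext k
        fin_cases k <;> simp
      rw [h3, map_sum]
      refine Submodule.sum_mem _ fun j _ => ?_
      rw [map_smul, ← hbi j]
      have h4 : ((n j : ℝ)) • b j = (n j) • b j := by
        simp
      rw [h4]
      exact Submodule.smul_mem _ _ (Submodule.subset_span ⟨j, rfl⟩)
    refine mem_iUnion.2 ⟨i, mem_iUnion.2 ⟨-⟨_, hm⟩, ⟨?_, hζ⟩⟩⟩
    refine ⟨ζ + P (fun j => (n j : ℝ)), hn, ?_⟩
    change -(P (fun j => (n j : ℝ))) + (ζ + P (fun j => (n j : ℝ))) = ζ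
    ring
  calc volume (ZSpan.fundamentalDomain b)
      ≤ volume (⋃ i, ⋃ g : (Submodule.span ℤ (Set.range b)).toAddSubgroup,
        (g +ᵥ T i) ∩ ZSpan.fundamentalDomain b) := measure_mono h2
    _ ≤ ∑' i, volume (⋃ g : (Submodule.span ℤ (Set.range b)).toAddSubgroup,
        (g +ᵥ T i) ∩ ZSpan.fundamentalDomain b) := measure_iUnion_le _
    _ ≤ ∑' i, ∑' g : (Submodule.span ℤ (Set.range b)).toAddSubgroup,
        volume ((g +ᵥ T i) ∩ ZSpan.fundamentalDomain b) :=
      ENNReal.tsum_le_tsum fun i => measure_iUnion_le _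
    _ = ∑' i, volume (T i) := by
      refine tsum_congr fun i => ?_
      exact (hD.measure_eq_tsum (T i)).symm

section

variable {E E' : Type*} [NormedAddCommGroup E] [NormedSpace ℝ E] [FiniteDimensional ℝ E]
  [MeasurableSpace E] [BorelSpace E]
  [NormedAddCommGroup E'] [NormedSpace ℝ E'] [FiniteDimensional ℝ E']
  [MeasurableSpace E'] [BorelSpace E']
  (μ : Measure E) [μ.IsAddHaarMeasure] (ν : Measure E') [ν.IsAddHaarMeasure]

/-! ### Slices -/

theorem slice_le {ι κ : Type*} [Countable ι] (K : Finset κ) {V : Set E'} (hV : MeasurableSet V)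
    {ρ : κ → E' → ℝ≥0∞} (hρ : ∀ k ∈ K, Measurable (V.indicator (ρ k)))
    (P : E' → (Fin 2 → ℝ) ≃L[ℝ] ℂ) {h : E' → ℝ≥0∞}
    (hl : ∀ z ∈ V, h z ≤ ∑ k ∈ K, ρ k z * ENNReal.ofReal (cov (P z)))
    {S : ι → Set (E' × ℂ)} (hS : ∀ i, MeasurableSet (S i))
    (hc : ∀ z ∈ V, ∀ ζ : ℂ, ∃ i, ∃ n : Fin 2 → ℤ, (z, ζ + P z (fun j => (n j : ℝ))) ∈ S i) :
    ∫⁻ z in V, h z ∂ν
      ≤ ∑ k ∈ K, ∑' i, ∫⁻ p in S i, V.indicator (ρ k) p.1 ∂(ν.prod volume) := by
  have h1 : ∀ z ∈ V, ENNReal.ofReal (cov (P z)) ≤ ∑' i, volume (Prod.mk z ⁻¹' (S i)) :=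
    fun z hz => cov_le (P z) _ fun ζ => hc z hz ζ
  have hmm : ∀ k ∈ K, ∀ i, Measurable fun z => V.indicator (ρ k) z * volume (Prod.mk z ⁻¹' (S i)) :=
    fun k hk i => (hρ k hk).mul (measurable_measure_prodMk_left (hS i))
  calc ∫⁻ z in V, h z ∂ν
      ≤ ∫⁻ z in V, ∑ k ∈ K, ∑' i, V.indicator (ρ k) z * volume (Prod.mk z ⁻¹' (S i)) ∂ν := by
        refine setLIntegral_mono' hV fun z hz => (hl z hz).trans ?_
        refine Finset.sum_le_sum fun k _ => ?_
        rw [ENNReal.tsum_mul_left, indicator_of_mem hz]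
        exact mul_le_mul_right (h1 z hz) _
    _ ≤ ∫⁻ z, ∑ k ∈ K, ∑' i, V.indicator (ρ k) z * volume (Prod.mk z ⁻¹' (S i)) ∂ν :=
        setLIntegral_le_lintegral _ _
    _ = ∑ k ∈ K, ∫⁻ z, ∑' i, V.indicator (ρ k) z * volume (Prod.mk z ⁻¹' (S i)) ∂ν :=
        lintegral_finsetSum' _ fun k hk => (Measurable.tsum (hmm k hk)).aemeasurable
    _ = ∑ k ∈ K, ∑' i, ∫⁻ z, V.indicator (ρ k) z * volume (Prod.mk z ⁻¹' (S i)) ∂ν :=
        Finset.sum_congr rfl fun k hk => lintegral_tsum fun i => (hmm k hk i).aemeasurable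
    _ = _ := by
        refine Finset.sum_congr rfl fun k hk => tsum_congr fun i => ?_
        have hm : Measurable fun p : E' × ℂ => V.indicator (ρ k) p.1 :=
          (hρ k hk).comp measurable_fst
        rw [← lintegral_indicator (hS i), lintegral_prod _ (hm.indicator (hS i)).aemeasurable]
        refine lintegral_congr fun z => ?_
        have h3 : (fun y : ℂ => (S i).indicator (fun p : E' × ℂ => V.indicator (ρ k) p.1) (z, y))
            = (Prod.mk z ⁻¹' (S i)).indicator fun _ => V.indicator (ρ k) z := by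
          ext y
          simp only [indicator, mem_preimage]
          rfl
        rw [h3, lintegral_indicator (measurable_prodMk_left (hS i)), lintegral_const,
          Measure.restrict_apply MeasurableSet.univ, univ_inter]

/-! ### Change of variables between different spaces -/

/-- the Haar constant of an isomorphism -/
noncomputable def haarC (e : E ≃L[ℝ] E' × ℂ) : ℝ≥0∞ :=
  ((haveI : (Measure.map e μ).IsAddHaarMeasure := e.isAddHaarMeasure_map μ
    Measure.addHaarScalarFactor (ν.prod (volume : Measure ℂ)) (Measure.map e μ) : NNReal) : ℝ≥0∞)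

theorem haarC_ne_top (e : E ≃L[ℝ] E' × ℂ) : haarC μ ν e ≠ ∞ := ENNReal.coe_ne_top

theorem chg (e : E ≃L[ℝ] E' × ℂ) {Ψ : E → E' × ℂ} {Ψ' : E → E →L[ℝ] E' × ℂ} {R : Set E}
    (hR : MeasurableSet R) (hd : ∀ x ∈ R, HasFDerivWithinAt Ψ (Ψ' x) R x) (hi : InjOn Ψ R) :
    MeasurableSet (Ψ '' R) ∧ ∀ f : E' × ℂ → ℝ≥0∞,
      ∫⁻ p in Ψ '' R, f p ∂(ν.prod volume)
        = haarC μ ν e * ∫⁻ x in R, ENNReal.ofReal
          |((e.symm : E' × ℂ →L[ℝ] E) ∘L Ψ' x).det| * f (Ψ x) ∂μ := by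
  have hH : (Measure.map e μ).IsAddHaarMeasure := e.isAddHaarMeasure_map μ
  have h0 : ν.prod (volume : Measure ℂ)
      = Measure.addHaarScalarFactor (ν.prod (volume : Measure ℂ)) (Measure.map e μ)
        • Measure.map e μ :=
    Measure.isAddLeftInvariant_eq_smul _ _
  have hd' : ∀ x ∈ R, HasFDerivWithinAt (fun x => e.symm (Ψ x))
      ((e.symm : E' × ℂ →L[ℝ] E) ∘L Ψ' x) R x := fun x hx =>
    (e.symm : E' × ℂ →L[ℝ] E).hasFDerivAt.comp_hasFDerivWithinAt x (hd x hx)
  have hi' : InjOn (fun x => e.symm (Ψ x)) R := fun x hx y hy h =>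
    hi hx hy (e.symm.injective h)
  have him : Ψ '' R = e '' ((fun x => e.symm (Ψ x)) '' R) := by
    rw [image_image]
    simp
  have hms : MeasurableSet ((fun x => e.symm (Ψ x)) '' R) :=
    measurable_image_of_fderivWithin hR hd' hi'
  have hme : MeasurableEmbedding e := e.toHomeomorph.measurableEmbedding
  refine ⟨by rw [him]; exact hme.measurableSet_image.2 hms, fun f => ?_⟩
  rw [h0, Measure.restrict_smul, lintegral_smul_measure, him, hme.restrict_map,
    hme.lintegral_map, preimage_image_eq _ e.injective,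
    lintegral_image_eq_lintegral_abs_det_fderiv_mul μ hR hd' hi']
  simp [ENNReal.smul_def, haarC]

theorem meas_pre {R : Set E} (hR : MeasurableSet R) {f : E → E'} (hf : ContinuousOn f R)
    {A : Set E'} (hA : MeasurableSet A) : MeasurableSet (R ∩ f ⁻¹' A) := by
  have h1 : Measurable (R.domRestrict f) := (continuousOn_iff_continuous_domRestrict.1 hf).measurable
  have h2 := (MeasurableEmbedding.subtype_coe hR).measurableSet_image.2 (h1 hA)
  have h3 : (Subtype.val : R → E) '' (R.domRestrict f ⁻¹' A) = R ∩ f ⁻¹' A := by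
    ext x
    constructor
    · rintro ⟨⟨y, hy⟩, hy', rfl⟩
      exact ⟨hy, hy'⟩
    · rintro ⟨hx, hx'⟩
      exact ⟨⟨x, hx⟩, hx', rfl⟩
  rwa [h3] at h2

/-- **M4, engine: the push-forward inequality.** -/
theorem push (e : E ≃L[ℝ] E' × ℂ) {J κ α ι : Type*} [Fintype J] [Countable α] [Countable ι]
    (K : Finset κ) {B : J → Set E} {F : κ → J → E → ℝ≥0∞} {V : Set E'} {U : α → Set E'}
    {ρ : κ → α → E' → ℝ≥0∞} {P : α → E' → (Fin 2 → ℝ) ≃L[ℝ] ℂ} {h : E' → ℝ≥0∞}
    {a : ι → α} {j : ι → J} {R : ι → Set E} {Ψ : ι → E → E' × ℂ}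
    {Ψ' : ι → E → E →L[ℝ] E' × ℂ} {g : J → E → E'}
    (hV : MeasurableSet V) (hU : ∀ b, MeasurableSet (U b)) (hVU : ∀ᵐ z ∂ν, z ∈ V → ∃ b, z ∈ U b)
    (hR : ∀ i, MeasurableSet (R i)) (hRB : ∀ i, R i ⊆ B (j i))
    (hd : ∀ i, ∀ x ∈ R i, HasFDerivWithinAt (Ψ i) (Ψ' i x) (R i) x)
    (hi : ∀ i, InjOn (Ψ i) (R i)) (hg : ∀ i, ∀ x ∈ R i, (Ψ i x).1 = g (j i) x)
    (hcomp : ∀ i i', a i = a i' → j i = j i' → ∀ x ∈ R i ∩ R i', ∃ n : Fin 2 → ℤ,
      (Ψ i' x).2 = (Ψ i x).2 + P (a i) (g (j i) x) (fun l => (n l : ℝ)))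
    (hρ : ∀ k ∈ K, ∀ b, Measurable ((V ∩ U b).indicator (ρ k b)))
    (hcov : ∀ b, ∀ z ∈ V ∩ U b, ∀ ζ : ℂ, ∃ i, a i = b ∧ ∃ x ∈ R i, ∃ n : Fin 2 → ℤ,
      Ψ i x = (z, ζ + P b z (fun l => (n l : ℝ))))
    (hF : ∀ k ∈ K, ∀ i, ∀ x ∈ R i, g (j i) x ∈ V ∩ U (a i) →
      ENNReal.ofReal |((e.symm : E' × ℂ →L[ℝ] E) ∘L Ψ' i x).det| * ρ k (a i) (g (j i) x)
        ≤ F k (j i) x)
    (hl : ∀ b, ∀ z ∈ V ∩ U b, h z ≤ ∑ k ∈ K, ρ k b z * ENNReal.ofReal (cov (P b z))) :
    ∫⁻ z in V, h z ∂ν ≤ haarC μ ν e * ∑ k ∈ K, ∑ l, ∫⁻ x in B l, F k l x ∂μ := by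
  classical
  let _ : Encodable α := Encodable.ofCountable α
  let _ : Encodable ι := Encodable.ofCountable ι
  -- disjoint pieces of the base
  set W : α → Set E' := fun b => (V ∩ U b) \ ⋃ c, ⋃ (_ : Encodable.encode c < Encodable.encode b),
    U c with hW
  have hWm : ∀ b, MeasurableSet (W b) := fun b =>
    (hV.inter (hU b)).diff (MeasurableSet.iUnion fun c => MeasurableSet.iUnion fun _ => hU c)
  have hWs : ∀ b, W b ⊆ V ∩ U b := fun b => sdiff_subset
  have hWd : ∀ b c z, z ∈ W b → z ∈ W c → b = c := by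
    intro b c z hb hc
    rcases lt_trichotomy (Encodable.encode b) (Encodable.encode c) with h1 | h1 | h1
    · exact absurd (mem_iUnion.2 ⟨b, mem_iUnion.2 ⟨h1, hb.1.2⟩⟩) hc.2
    · exact Encodable.encode_injective h1
    · exact absurd (mem_iUnion.2 ⟨c, mem_iUnion.2 ⟨h1, hc.1.2⟩⟩) hb.2
  have hWc : ∀ z ∈ V, (∃ b, z ∈ U b) → ∃ b, z ∈ W b := by
    intro z hz hb
    have hex : ∃ n : ℕ, ∃ b, Encodable.encode b = n ∧ z ∈ U b := by
      obtain ⟨b, hb⟩ := hb
      exact ⟨_, b, rfl, hb⟩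
    obtain ⟨b, hb1, hb2⟩ := Nat.find_spec hex
    refine ⟨b, ⟨hz, hb2⟩, fun h1 => ?_⟩
    obtain ⟨c, hc⟩ := mem_iUnion.1 h1
    obtain ⟨hc1, hc2⟩ := mem_iUnion.1 hc
    rw [hb1] at hc1
    exact Nat.find_min hex hc1 ⟨c, rfl, hc2⟩
  -- pieces of the total space over them
  set R1 : ι → Set E := fun i => R i ∩ (fun x => (Ψ i x).1) ⁻¹' (W (a i)) with hR1
  have hcont : ∀ i, ContinuousOn (Ψ i) (R i) := fun i x hx => (hd i x hx).continuousWithinAt
  have hR1m : ∀ i, MeasurableSet (R1 i) := fun i =>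
    meas_pre (hR i) (continuous_fst.comp_continuousOn (hcont i)) (hWm (a i))
  set R2 : ι → Set E := fun i => R1 i \ ⋃ c, ⋃ (_ : Encodable.encode c < Encodable.encode i ∧ j c = j i),
    R1 c with hR2
  have hR2m : ∀ i, MeasurableSet (R2 i) := fun i =>
    (hR1m i).diff (MeasurableSet.iUnion fun c => MeasurableSet.iUnion fun _ => hR1m c)
  have hR2s : ∀ i, R2 i ⊆ R i := fun i x hx => hx.1.1
  have hR2d : ∀ i i' x, j i = j i' → x ∈ R2 i → x ∈ R2 i' → i = i' := by
    intro b c z hj hb hc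
    rcases lt_trichotomy (Encodable.encode b) (Encodable.encode c) with h1 | h1 | h1
    · exact absurd (mem_iUnion.2 ⟨b, mem_iUnion.2 ⟨⟨h1, hj⟩, hb.1⟩⟩) hc.2
    · exact Encodable.encode_injective h1
    · exact absurd (mem_iUnion.2 ⟨c, mem_iUnion.2 ⟨⟨h1, hj.symm⟩, hc.1⟩⟩) hb.2
  have hcov2 : ∀ b, ∀ z ∈ W b, ∀ ζ : ℂ, ∃ i, a i = b ∧ ∃ x ∈ R2 i, ∃ n : Fin 2 → ℤ,
      Ψ i x = (z, ζ + P b z (fun l => (n l : ℝ))) := by
    intro b z hz ζ
    obtain ⟨i, hib, x, hx, n, hn⟩ := hcov b z (hWs b hz) ζ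
    have hx1 : x ∈ R1 i := ⟨hx, by
      change (Ψ i x).1 ∈ W (a i)
      rw [hn, hib]
      exact hz⟩
    have hex : ∃ m : ℕ, ∃ c, Encodable.encode c = m ∧ j c = j i ∧ x ∈ R1 c :=
      ⟨_, i, rfl, rfl, hx1⟩
    obtain ⟨c, hc1, hc2, hc3⟩ := Nat.find_spec hex
    have hgc : (Ψ c x).1 = z := by
      rw [hg c x hc3.1, hc2, ← hg i x hx, hn]
    have hac : a c = b := by
      have h1 : (Ψ c x).1 ∈ W (a c) := hc3.2
      rw [hgc] at h1
      exact hWd _ _ z h1 hz
    obtain ⟨n', hn'⟩ := hcomp i c (hib.trans hac.symm) hc2.symm x ⟨hx, hc3.1⟩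
    refine ⟨c, hac, x, ⟨hc3, fun h1 => ?_⟩, n + n', ?_⟩
    · obtain ⟨d, hd⟩ := mem_iUnion.1 h1
      obtain ⟨hd1, hd2⟩ := mem_iUnion.1 hd
      rw [hc1] at hd1
      exact Nat.find_min hex hd1.1 ⟨d, rfl, hd1.2.trans hc2, hd2⟩
    · refine Prod.ext hgc ?_
      have hgz : g (j i) x = z := by rw [← hg i x hx, hn]
      rw [hn', hn, hib, hgz]
      have h5 : (fun l => (((n + n') l : ℤ) : ℝ)) = (fun l => (n l : ℝ)) + fun l => (n' l : ℝ) := by
        ext l
        simp
      simp only [h5, map_add]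
      ring
  have hch := fun i => chg μ ν e (hR2m i) (Ψ := Ψ i) (Ψ' := Ψ' i)
    (fun x hx => (hd i x (hR2s i hx)).mono (hR2s i)) ((hi i).mono (hR2s i))
  -- slices
  have hsl : ∀ b, ∫⁻ z in W b, h z ∂ν ≤ ∑ k ∈ K, ∑' i,
      if a i = b then ∫⁻ p in Ψ i '' R2 i, (W b).indicator (ρ k b) p.1 ∂(ν.prod volume) else 0 := by
    intro b
    have h1 := slice_le ν K (hWm b) (ρ := fun k => ρ k b) (fun k hk => by
      have h2 := (hρ k hk b).indicator (hWm b)
      rwa [indicator_indicator, inter_eq_self_of_subset_left (hWs b)] at h2) (P b)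
      (fun z hz => hl b z (hWs b hz))
      (S := fun i => if a i = b then Ψ i '' R2 i else ∅)
      (fun i => by
        change MeasurableSet (if a i = b then Ψ i '' R2 i else ∅)
        split_ifs
        exacts [(hch i).1, MeasurableSet.empty])
      (fun z hz ζ => by
        obtain ⟨i, hib, x, hx, n, hn⟩ := hcov2 b z hz ζ
        refine ⟨i, n, ?_⟩
        change _ ∈ (if a i = b then Ψ i '' R2 i else ∅)
        rw [if_pos hib]
        exact ⟨x, hx, hn⟩)
    refine h1.trans (le_of_eq ?_)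
    refine Finset.sum_congr rfl fun k _ => tsum_congr fun i => ?_
    split_ifs
    · rfl
    · simp
  have hfin : ∀ k ∈ K, ∀ i, ∫⁻ p in Ψ i '' R2 i, (W (a i)).indicator (ρ k (a i)) p.1 ∂(ν.prod volume)
      ≤ haarC μ ν e * ∫⁻ x in R2 i, F k (j i) x ∂μ := by
    intro k hk i
    rw [(hch i).2]
    refine mul_le_mul_right (setLIntegral_mono' (hR2m i) fun x hx => ?_) _
    have h1 : (Ψ i x).1 ∈ W (a i) := hx.1.2
    rw [indicator_of_mem h1, hg i x hx.1.1]
    refine hF k hk i x hx.1.1 ?_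
    rw [← hg i x hx.1.1]
    exact hWs _ h1
  calc ∫⁻ z in V, h z ∂ν ≤ ∫⁻ z in ⋃ b, W b, h z ∂ν := by
        refine lintegral_mono_set' ?_
        filter_upwards [hVU] with z hz hzV
        exact mem_iUnion.2 (hWc z hzV (hz hzV))
    _ ≤ ∑' b, ∫⁻ z in W b, h z ∂ν := lintegral_iUnion_le _ _
    _ ≤ ∑' b, ∑ k ∈ K, ∑' i, (if a i = b then
        ∫⁻ p in Ψ i '' R2 i, (W b).indicator (ρ k b) p.1 ∂(ν.prod volume) else 0) :=
        ENNReal.tsum_le_tsum hsl
    _ = ∑ k ∈ K, ∑' b, ∑' i, (if a i = b then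
        ∫⁻ p in Ψ i '' R2 i, (W b).indicator (ρ k b) p.1 ∂(ν.prod volume) else 0) :=
        Summable.tsum_finsetSum fun k _ => ENNReal.summable
    _ = ∑ k ∈ K, ∑' i, ∫⁻ p in Ψ i '' R2 i, (W (a i)).indicator (ρ k (a i)) p.1
        ∂(ν.prod volume) := by
        refine Finset.sum_congr rfl fun k _ => ?_
        rw [ENNReal.tsum_comm]
        refine tsum_congr fun i => ?_
        rw [tsum_eq_single (a i) (fun b hb => if_neg (Ne.symm hb)), if_pos rfl]
    _ ≤ ∑ k ∈ K, ∑' i, haarC μ ν e * ∫⁻ x in R2 i, F k (j i) x ∂μ :=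
        Finset.sum_le_sum fun k hk => ENNReal.tsum_le_tsum fun i => hfin k hk i
    _ = haarC μ ν e * ∑ k ∈ K, ∑' i, ∫⁻ x in R2 i, F k (j i) x ∂μ := by
        rw [Finset.mul_sum]
        exact Finset.sum_congr rfl fun k _ => ENNReal.tsum_mul_left
    _ ≤ _ := by
        refine mul_le_mul_right (Finset.sum_le_sum fun k _ => ?_) _
        calc ∑' i, ∫⁻ x in R2 i, F k (j i) x ∂μ
            = ∑' i, ∑ l, ∫⁻ x in (if j i = l then R2 i else ∅), F k l x ∂μ := by
              refine tsum_congr fun i => ?_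
              rw [Finset.sum_eq_single (j i) (fun l _ hl => by
                rw [if_neg (Ne.symm hl)]
                simp) (fun h1 => absurd (Finset.mem_univ _) h1), if_pos rfl]
          _ = ∑ l, ∑' i, ∫⁻ x in (if j i = l then R2 i else ∅), F k l x ∂μ :=
              Summable.tsum_finsetSum fun l _ => ENNReal.summable
          _ ≤ ∑ l, ∫⁻ x in B l, F k l x ∂μ := by
              refine Finset.sum_le_sum fun l _ => ?_
              rw [← lintegral_iUnion (fun i => by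
                change MeasurableSet (if j i = l then R2 i else ∅)
                split_ifs
                exacts [hR2m i, MeasurableSet.empty]) (fun i i' hii => by
                change Disjoint (if j i = l then R2 i else ∅) (if j i' = l then R2 i' else ∅)
                rw [Set.disjoint_left]
                intro x hx hx'
                split_ifs at hx with h1
                · split_ifs at hx' with h2
                  · exact hii (hR2d i i' x (h1.trans h2.symm) hx hx')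
                  · exact hx'
                · exact hx)]
              refine lintegral_mono_set (iUnion_subset fun i x hx => ?_)
              split_ifs at hx with h1
              · rw [← h1]
                exact hRB i (hR2s i hx)
              · exact absurd hx (notMem_empty x)

end

end Vale.Agent.P281.H125.TM
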